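import Vale.Agent.P088.R2.H16.Efin
import Vale.Agent.P088.R2.H16.RowCo2
import Vale.Agent.P088.R2.H558.E10
import Vale.Agent.P088.R2.H230.Ebd
import Vale.Agent.P088.R2.H281.EqbC
import Vale.Agent.P088.R2.H856.Eqc
import Vale.Agent.P088.R2.H87.EQX
import Vale.Agent.P088.R2.H328.Gap
import Vale.Agent.P088.R2.H328.Osc
import Vale.Agent.P088.R2.H537.EN1
import Vale.Agent.P088.R2.H814.EN2
import Vale.Agent.P088.R2.H349.Hyp
import Vale.Agent.P088.R2.H420.Dir
import Vale.Agent.P088.R2.H820.Sol
import Vale.Agent.P088.R2.H901.Inv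
import Vale.Agent.P088.R2.H901.Inp
import Vale.Agent.P088.R2.H673.QM8
import Vale.Agent.P088.R2.H948.Ort
import Vale.Agent.P088.R2.H551.Tfr
import Vale.Agent.P088.R2.H712.RowITP
import Vale.Agent.P088.R2.H238.Log
import Vale.Agent.P088.R2.H961.RowTop

/-!
# P088, the local theorem for two arbitrary metrics near a constant one

`RowLOG` is proved here by putting the rows of the project together.
-/

noncomputable section

namespace Vale.Agent.P088.HY.H794

/-- The basic estimate. -/
theorem rowEST : RowEST :=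
  H16.rowEST rowEID (rowEQB rowEBD) (H856.rowEQC rowEBD) (rowEQX rowEBD) rowEGAP rowEOS
    (rowEN1 rowEOS) (rowEN2 rowEGAP rowEIK (rowEQB rowEBD))

/-- Solvability of the overdetermined system. -/
theorem rowSOL : RowSOL := R2.H820.rowSOL rowEST R2.H961.rowTOP rowHYP

/-- The Dirichlet problem. -/
theorem rowDIR : RowDIR := DIR.rowDIR rowHYP

/-- The two-metric theorem near a constant metric, with estimates. -/
theorem rowCO2 : RowCO2 :=
  H16.rowCO2 rowSOL rowINP (rowQM rowDIR) (rowORT rowINV) R2.H551.Tfr.rowTFR rowITP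

/-- **Two metrics near a constant one**: the local theorem. -/
theorem rowLOG : RowLOG := R2.H238.rowLOG rowCO2

end Vale.Agent.P088.HY.H794
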