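import Vale.Agent.P088.R2.H794.Fam6
import Vale.Agent.P088.R2.H794.Near
import Vale.Agent.P088.R2.H794.StC
import Vale.Agent.P088.R2.H794.RowLog

/-!
# P088: two arbitrary metrics, finitely many cells
-/

set_option linter.all false

open Bundle Manifold MeasureTheory Set Filter Topology
open scoped ContDiff Matrix ENNReal

noncomputable section

namespace Vale.Agent.P088.HY.H794

open Vale.Agent.P088 Vale.Agent.P088.B Vale.Agent.P088.EYM
open Vale.Agent.P088.H207 (IsDom IsOpn inM MatchO CloseO IsBall oball kball rad gl ch_at src_at gch_at)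
open Vale.Agent.P088.H207.J (tr tri tr_tri tri_tr tr_cd tri_cd)
open Vale.Agent.P088.H207.R

universe u

section

variable {n N : ℕ} [NeZero n] {M : Type u} [TopologicalSpace M]
  [ChartedSpace (EuclideanHalfSpace n) M] [IsManifold (𝓡∂ n) ∞ M]

theorem iter_cent (Q : Pair (at_ n M) N) (p : M) (i j : Fin n) (l : ℕ) (y : Fin n → ℝ) :
    iteratedFDeriv ℝ l (fun y => gch (at_ n M) Q.g p (y + (at_ n M).ch p p) i j) y =
      iteratedFDeriv ℝ l (fun y => gch (at_ n M) Q.g p y i j) (y + (at_ n M).ch p p) :=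
  iteratedFDeriv_comp_add_right (𝕜 := ℝ)
    (f := fun y => gch (at_ n M) Q.g p y i j) l ((at_ n M).ch p p) y

end

section

variable {n : ℕ} [NeZero n]

/-- What `bg_fam` needs in one cell. -/
def CellD {N : ℕ} {M : Type u} [TopologicalSpace M]
    [ChartedSpace (EuclideanHalfSpace n) M] (P' Q' : Pair (at_ n M) N) (p : M)
    (W K : Set (Fin n → ℝ)) : Prop :=
  ∃ (Ω : Set (Fin n → ℝ)) (h : LR.MF n) (X : LR.MF n → Prop), IsDom (at_ n M) p Ω ∧ K ⊆ Ω ∧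
    Ω ⊆ W ∧ LR.SmM h ∧ (∀ y, (h y).PosDef) ∧ RigO n Ω h X ∧ MatchO h P' p Ω ∧
    ∀ g : LR.MF n, LR.SmM g → (∀ y, (g y).PosDef) →
      (∀ y ∈ Ω, g y = gch (at_ n M) Q'.g p (y + (at_ n M).ch p p)) → (∀ y ∉ Ω, g y = h y) → X g

/-- A small cell. -/
theorem small_cellD {k : ℕ} (hk : 1 ≤ k) {B ε : ℝ} (hB : 0 < B)
    (hε : 0 < ε) (hR : RigR n k B ε) : ∃ r₀ : ℝ, 0 < r₀ ∧
    ∀ {N : ℕ} {M : Type u} [TopologicalSpace M]
    [ChartedSpace (EuclideanHalfSpace n) M] [IsManifold (𝓡∂ n) ∞ M] [T2Space M] [CompactSpace M]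
    [ConnectedSpace M] (P' Q' : Pair (at_ n M) N) (p : M) (W K : Set (Fin n → ℝ)),
    IsOpn (at_ n M) p W → IsCompact K → K ⊆ W → SmallCell k B r₀ P' Q' p W →
    CellD P' Q' p W K := by
  obtain ⟨r₀, hr₀, hcell⟩ := rigO_cell hk hB hε hR
  refine ⟨r₀, hr₀, ?_⟩
  intro N M _ _ _ _ _ _ P' Q' p W K hW hK hKW hs
  obtain ⟨r, hr, hrr, hp, h1, hWr, h2⟩ := hs
  obtain ⟨Ω, g1, g2, g3, g4, g5⟩ := reg_between hK hW.1 hKW
  have g6 : Ω ⊆ W := subset_closure.trans g5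
  have hdom : IsDom (at_ n M) p Ω := ⟨g1, g2, g3, fun y hy => hW.2 y (g5 hy)⟩
  have hΩr : Ω ⊆ oB n (3 / 2 * r) := fun y hy => hWr y (g6 hy)
  -- points of the ball
  have hpt : ∀ y : Fin n → ℝ, ∑ j, y j ^ 2 ≤ (2 * r) ^ 2 → 0 < (y + (at_ n M).ch p p) 0 ∧
      ∃ x ∈ (at_ n M).src p, (at_ n M).ch p x = y + (at_ n M).ch p p := by
    intro y hy
    refine hp.2 _ ?_
    show ∑ i, ((y + (at_ n M).ch p p) i - (at_ n M).ch p p i) ^ 2 ≤ (2 * r) ^ 2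
    simpa using hy
  have hxy : ∀ {x : M} {y : Fin n → ℝ}, (at_ n M).ch p x = y + (at_ n M).ch p p →
      rad (at_ n M) p ((at_ n M).ch p x) = ∑ j, y j ^ 2 := by
    intro x y h
    show ∑ i, ((at_ n M).ch p x i - (at_ n M).ch p p i) ^ 2 = _
    rw [h]
    simp
  have hball : ∀ y ∈ oB n (2 * r), ∃ x ∈ oball (at_ n M) p (2 * r),
      (at_ n M).ch p x = y + (at_ n M).ch p p := by
    intro y hy
    obtain ⟨-, x, hx, he⟩ := hpt y (le_of_lt hy)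
    refine ⟨x, ⟨hx, ?_⟩, he⟩
    rw [hxy he]
    exact hy
  obtain ⟨f, hf⟩ : ∃ f : LR.MF n, f = fun y => gch (at_ n M) P'.g p (y + (at_ n M).ch p p) :=
    ⟨_, rfl⟩
  obtain ⟨hfs, hfp⟩ := gch_cent P' (O := oB n (2 * r)) (p := p) fun y hy => hpt y (le_of_lt hy)
  have hfb : ∀ y ∈ oB n (2 * r), ∀ i j, ∀ l ≤ k,
      ‖iteratedFDeriv ℝ l (fun y => f y i j) y‖ ≤ B := by
    intro y hy i j l hl
    obtain ⟨x, hx, he⟩ := hball y hy
    have h3 := (h1 x hx).1 i j l hl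
    rw [he] at h3
    rw [hf, iter_cent P' p i j l y]
    exact h3
  have h0 : (0 : Fin n → ℝ) ∈ oB n (2 * r) := zero_mem_oB (by linarith)
  have hdet : 1 / B ≤ (f 0).det := by
    obtain ⟨x, hx, he⟩ := hball 0 h0
    have h3 := (h1 x hx).2
    rw [he] at h3
    rw [hf]
    exact h3
  have hrig := hcell r hr hrr f (by rw [hf]; exact hfs) (by rw [hf]; exact hfp) hfb hdet
    Ω g1 g2 hΩr
  have hsub : inM (at_ n M) p Ω ⊆ inM (at_ n M) p W := fun x hx => ⟨hx.1, g6 hx.2⟩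
  refine ⟨Ω, exR r f, _, hdom, g4, g6, exR_sm hr (by rw [hf]; exact hfs),
    exR_pos hr (by rw [hf]; exact hfp), hrig, ?_, ?_⟩
  · intro x hx
    refine ⟨?_, (h2 x (hsub hx)).1⟩
    have h3 : ∑ j, ((at_ n M).ch p x - (at_ n M).ch p p) j ^ 2 < (3 / 2 * r) ^ 2 := hΩr hx.2
    rw [exR_in hr h3.le, hf]
    show _ = gch (at_ n M) P'.g p ((at_ n M).ch p x - (at_ n M).ch p p + (at_ n M).ch p p)
    rw [sub_add_cancel]
  · intro g hg hgp hin' hout y hy i j l hl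
    obtain ⟨x, hx, he⟩ := dom_pt hdom hy
    have h3 := (h2 x (hsub hx)).2 i j l hl
    rw [he] at h3
    have e1 : (fun y => g y i j) =ᶠ[𝓝 y]
        fun y => gch (at_ n M) Q'.g p (y + (at_ n M).ch p p) i j := by
      filter_upwards [g1.mem_nhds hy] with y' hy'
      rw [hin' y' hy']
    rw [(e1.iteratedFDeriv ℝ l).self_of_nhds, iter_cent Q' p i j l y]
    exact h3

/-- A cell near a constant metric. -/
theorem near_cellD {k : ℕ} {B ε : ℝ} (hB : 0 < B) (hε : 0 < ε)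
    (hRig : RigR n k B ε) (R : ℝ) (hR : 0 < R) : ∃ δ : ℝ, 0 < δ ∧
    ∀ {N : ℕ} {M : Type u} [TopologicalSpace M]
    [ChartedSpace (EuclideanHalfSpace n) M] [IsManifold (𝓡∂ n) ∞ M] [T2Space M] [CompactSpace M]
    [ConnectedSpace M] (P' Q' : Pair (at_ n M) N) (p : M) (W K : Set (Fin n → ℝ)),
    IsOpn (at_ n M) p W → IsCompact K → K ⊆ W → NearCell k B R δ P' Q' p W K →
    CellD P' Q' p W K := by
  obtain ⟨δ, hδ, s, hs, hin, hmain⟩ := rigO_near hε hRig (R + 1) (by linarith)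
  refine ⟨δ, hδ, ?_⟩
  intro N M _ _ _ _ _ _ P' Q' p W K hW hK hKW hnear
  obtain ⟨G, h, hG, hGb, hGd, hh, hhp, hhcl, hM, hKR, hcl⟩ := hnear
  have hW' : IsOpen (W ∩ {y : Fin n → ℝ | ∀ j, |y j| < R + 1}) := by
    refine hW.1.inter ?_
    have e1 : {y : Fin n → ℝ | ∀ j, |y j| < R + 1} = ⋂ j, {y : Fin n → ℝ | |y j| < R + 1} := by
      ext y
      simp
    rw [e1]
    exact isOpen_iInter_of_finite fun j => isOpen_lt (by fun_prop) continuous_const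
  obtain ⟨Ω, g1, g2, g3, g4, g5⟩ := reg_between hK hW' fun y hy =>
    ⟨hKW hy, fun j => lt_of_le_of_lt (hKR y hy j) (by linarith)⟩
  have g6 : Ω ⊆ W := fun y hy => (g5 (subset_closure hy)).1
  have hΩR : ∀ y ∈ Ω, ∀ j, |y j| ≤ R + 1 := fun y hy j => ((g5 (subset_closure hy)).2 j).le
  have hsub : inM (at_ n M) p Ω ⊆ inM (at_ n M) p W := fun x hx => ⟨hx.1, g6 hx.2⟩
  have hdom : IsDom (at_ n M) p Ω := ⟨g1, g2, g3, fun y hy => hW.2 y (g5 hy).1⟩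
  have hrig := hmain G hG hGb (by rwa [one_div] at hGd) h hh hhp hhcl Ω g1 g2 hΩR
  refine ⟨Ω, exC s G h, _, hdom, g4, g6, exC_sm hh, exC_pos hG hhp, hrig, ?_, ?_⟩
  · intro x hx
    refine ⟨?_, (hM x (hsub hx)).2⟩
    rw [(hM x (hsub hx)).1, exC_in hs (hin _ fun j => hΩR _ hx.2 j)]
  · intro g hg hgp hin' hout y hy i j l hl
    obtain ⟨x, hx, hxy⟩ := dom_pt hdom hy
    have h1 := hcl x (hsub hx) i j l hl
    rw [hxy] at h1
    have e1 : (fun y => g y i j - G i j) =ᶠ[𝓝 y]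
        fun y => gch (at_ n M) Q'.g p (y + (at_ n M).ch p p) i j - G i j := by
      filter_upwards [g1.mem_nhds hy] with y' hy'
      rw [hin' y' hy']
    rw [(e1.iteratedFDeriv ℝ l).self_of_nhds]
    have h2 := iteratedFDeriv_comp_add_right (𝕜 := ℝ)
      (f := fun y => gch (at_ n M) Q'.g p y i j - G i j) l ((at_ n M).ch p p) y
    rw [h2]
    exact h1

end

/-- **Two arbitrary metrics, finitely many cells.** -/
theorem cells_fin {n : ℕ} [NeZero n] (hn : 3 ≤ n) : ∃ k : ℕ, ∀ B R : ℝ, 0 < B → 0 < R →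
    ∃ r₀ δ : ℝ, 0 < r₀ ∧ 0 < δ ∧ ∀ N : ℕ, 1 ≤ N → CellUniq.{u} n N k B R r₀ δ := by
  obtain ⟨k₀, hk₀⟩ := rigR_of_log rowLOG hn
  have hmono : ∀ {B ε : ℝ}, RigR n k₀ B ε → RigR n (k₀ + 1) B ε := by
    intro B ε h R hR G hG hGb hGd Ω hΩ hreg hΩb g₁ g₂ s1 s2 p1 p2 hoff1 hoff c1 c2 hst
    exact h R hR G hG hGb hGd Ω hΩ hreg hΩb g₁ g₂ s1 s2 p1 p2 hoff1 hoff
      (fun i j l hl => c1 i j l (by omega)) (fun i j l hl => c2 i j l (by omega)) hst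
  refine ⟨k₀ + 1, fun B R hB hR => ?_⟩
  obtain ⟨ε, hε, h⟩ := hk₀ B hB
  obtain ⟨r₀, hr₀, hsm⟩ := small_cellD.{u} (by omega) hB hε (hmono h)
  obtain ⟨δ, hδ, hne⟩ := near_cellD.{u} hB hε (hmono h) R hR
  refine ⟨r₀, δ, hr₀, hδ, fun N hN => ?_⟩
  intro M _ _ _ _ _ _ Γ O hO hΓ hΓne P P' Q Q' hd hP hQ ι _ p W K hW hK hKW hdj hc hcells hpw hU
  have hd1 : Vale.Agent.P088.B.SameData Γ P Q' :=
    Vale.Agent.P088.H207.O.same_symm (Vale.Agent.P088.B.same_related (at_ n M) rfl hO hΓ hΓne hQ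
      (Vale.Agent.P088.H207.O.same_symm hd))
  suffices hrel : Related Γ P Q' from
    Vale.Agent.P088.H207.O.related_tr hrel (Vale.Agent.P088.H207.O.related_inv hQ)
  have hD : ∀ a, CellD P' Q' (p a) (W a) (K a) := fun a => by
    rcases hcells a with h | h
    · exact hsm P' Q' (p a) (W a) (K a) (hW a) (hK a) (hKW a) h
    · exact hne P' Q' (p a) (W a) (K a) (hW a) (hK a) (hKW a) h
  choose Ω h X g1 g2 g3 g4 g5 g6 g7 g8 using hD
  have hsub : ∀ a, inM (at_ n M) (p a) (Ω a) ⊆ inM (at_ n M) (p a) (W a) := fun a x hx =>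
    ⟨hx.1, g3 a hx.2⟩
  have hdj' : ∀ a b, a ≠ b → Disjoint (inM (at_ n M) (p a) (Ω a)) (inM (at_ n M) (p b) (Ω b)) :=
    fun a b hab => (hdj a b hab).mono (hsub a) (hsub b)
  obtain ⟨K₁, k1, k2, k3, k4⟩ := F.nbF g1 hK g2 hdj' hc
  exact F.bg_fam hn hN (at_ n M) rfl Γ O hO hΓ hΓne P P' Q' hd1 hP p g4 g5 g6 g1 g7 hdj' K K₁ hK k2
    k1 k3 hc k4 hpw hU g8

end Vale.Agent.P088.HY.H794

end
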