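import Vale.Agent.P088.R2.H794.FamU4
import Vale.Agent.P088.R2.H794.Fam7
import Vale.Agent.P088.R2.H794.StP
import Vale.Agent.P088.R2.H455.G.G2

/-!
# P088: two arbitrary pairs, the four kinds of cells
-/

set_option linter.all false

open Bundle Manifold MeasureTheory Set Filter Topology
open scoped ContDiff Matrix ENNReal

noncomputable section

namespace Vale.Agent.P088.HY.H794

open Vale.Agent.P088 Vale.Agent.P088.B Vale.Agent.P088.EYM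
open Vale.Agent.P088.H207 (IsDom IsOpn inM MatchO CloseO IsBall oball kball rad gl ch_at src_at gch_at)
open Vale.Agent.P088.H207.J (tr tri tr_tri tri_tr tr_cd tri_cd)
open Vale.Agent.P088.H207.R
open Vale.Agent.P088.R2.H455.T (ClRC RigTR)
open Vale.Agent.P088.R2.H455.G (RigGR rigP_cell rigP_near rigGR_mono)
open Vale.Agent.P088.R2.H455.J (RigP MatchP RigK rigP_of ex_ext cf cf_eq cf_pos h00 smul_sm smul_pd
  gch_cd gch_pd op_pt op_tg ach_cd ach_sk ach_ifd ifd_glue exA exA_in exA_smU exA_cl exG exG_in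
  exG_sm exG_pos sc_le reg_conn rigK_cell rigK_near ConfO BddA ConnO)

universe u

section

variable {n : ℕ} [NeZero n]

/-- What `bg_famU` needs in one cell. -/
def CellDU {N : ℕ} {M : Type u} [TopologicalSpace M]
    [ChartedSpace (EuclideanHalfSpace n) M] (P' Q' : Pair (at_ n M) N) (p : M)
    (W K : Set (Fin n → ℝ)) : Prop :=
  ∃ (Ω : Set (Fin n → ℝ)) (h : LR.MF n) (α : LR.Cn n N) (X : LR.MF n → LR.Cn n N → Prop),
    IsDom (at_ n M) p Ω ∧ K ⊆ Ω ∧ Ω ⊆ W ∧ LR.SmM h ∧ (∀ y, (h y).PosDef) ∧ LR.SmU α ∧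
    RigP n N Ω h α X ∧ MatchP h α P' p Ω ∧
    ∀ (g : LR.MF n) (β : LR.Cn n N), LR.SmM g → (∀ y, (g y).PosDef) → LR.SmU β →
      (∀ y ∈ Ω, g y = gch (at_ n M) Q'.g p (y + (at_ n M).ch p p)) → (∀ y ∉ K, g y = h y) →
      (∀ i, ∀ y ∈ Ω, β i y = ach (at_ n M) Q'.A p i (y + (at_ n M).ch p p)) →
      (∀ i, ∀ y ∉ K, β i y = α i y) → X g β

/-- A cell in which the metrics are conformal to the same metric. -/
theorem cls_cellDU {N : ℕ} {Ω W K : Set (Fin n → ℝ)} {h : LR.MF n} (hh : LR.SmM h)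
    (hhp : ∀ y, (h y).PosDef) {α : LR.Cn n N} (hα : LR.SmU α)
    {Y : LR.Cn n N → Prop} (hC : RigK n N Ω h Y) (hY : Y α)
    {M : Type u} [TopologicalSpace M]
    [ChartedSpace (EuclideanHalfSpace n) M] [IsManifold (𝓡∂ n) ∞ M] [T2Space M] [CompactSpace M]
    [ConnectedSpace M] (P' Q' : Pair (at_ n M) N) (p : M) (hW : IsOpn (at_ n M) p W)
    (hp : IsDom (at_ n M) p Ω) (hcl : closure Ω ⊆ W) (hKΩ : K ⊆ Ω) (c1 : ConfO h P' p W)
    (c2 : ConfO h Q' p W)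
    (hcon : ConnO α P' p Ω)
    (hYβ : ∀ β : LR.Cn n N, LR.SmU β →
      (∀ i, ∀ y ∈ Ω, β i y = ach (at_ n M) Q'.A p i (y + (at_ n M).ch p p)) →
      (∀ i, ∀ y ∉ K, β i y = α i y) → Y β) :
    CellDU P' Q' p W K := by
  obtain ⟨f, hf⟩ : ∃ f : LR.MF n, f = fun y => gch (at_ n M) P'.g p (y + (at_ n M).ch p p) :=
    ⟨_, rfl⟩
  have hfs : ∀ i j, ContDiffOn ℝ ∞ (fun y => f y i j) W := by
    rw [hf]; exact gch_cd P' hW
  have hfp : ∀ y ∈ W, (f y).PosDef := by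
    rw [hf]; exact fun y hy => gch_pd P' hW hy
  have hmem : ∀ y ∈ W, ∃ x ∈ inM (at_ n M) p W, (at_ n M).ch p x = y + (at_ n M).ch p p :=
    fun y hy => op_pt hW hy
  have hft : ∀ y ∈ W, ∃ t : ℝ, f y = t • h y := by
    intro y hy
    obtain ⟨x, hx, hxy⟩ := hmem y hy
    obtain ⟨t, ht⟩ := c1 x hx
    rw [hxy, add_sub_cancel_right] at ht
    exact ⟨t, by rw [hf]; exact ht⟩
  obtain ⟨c, hc1, hc2, hc3⟩ := ex_ext (hp.2.2.1.isCompact_closure) hW.1 hcl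
    (t := cf h f) ((hfs 0 0).div (hh 0 0).contDiffOn fun y _ => (h00 (hhp y)).ne')
    fun y hy => cf_pos (hhp y) (hfp y hy)
  refine ⟨Ω, fun y => c y • h y, α, fun g β => (∀ y, ∃ t : ℝ, g y = t • h y) ∧ Y β, hp, hKΩ,
    subset_closure.trans hcl, smul_sm hc1 hh, smul_pd hc2 hhp, hα,
    rigP_of hC hh hhp hc1 hc2 hα hY, ?_, ?_⟩
  · intro x hx
    refine ⟨?_, hcon x hx⟩
    have hy : (at_ n M).ch p x - (at_ n M).ch p p ∈ Ω := hx.2
    have e1 := cf_eq (hhp _) (hft _ (hcl (subset_closure hy)))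
    rw [← hc3 _ (subset_closure hy)] at e1
    refine Eq.trans ?_ e1
    rw [hf]
    show _ = gch (at_ n M) P'.g p ((at_ n M).ch p x - (at_ n M).ch p p + (at_ n M).ch p p)
    rw [sub_add_cancel]
  · intro g β hg hgp hβ hin hout hAin hAout
    refine ⟨fun y => ?_, hYβ β hβ hAin hAout⟩
    by_cases hy : y ∈ Ω
    · obtain ⟨x, hx, hxy⟩ := hmem y (hcl (subset_closure hy))
      obtain ⟨t, ht⟩ := c2 x hx
      rw [hxy, add_sub_cancel_right] at ht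
      exact ⟨t, by rw [hin y hy, ht]⟩
    · exact ⟨c y, hout y fun hy' => hy (hKΩ hy')⟩

/-- The points of a ball. -/
theorem ball_opn {M : Type u} [TopologicalSpace M]
    [ChartedSpace (EuclideanHalfSpace n) M] {p : M} {R : ℝ} (hp : IsBall (at_ n M) p R) :
    IsOpn (at_ n M) p (oB n R) := by
  refine ⟨isOpen_oB _, fun y hy => hp.2 _ ?_⟩
  show ∑ i, ((y + (at_ n M).ch p p) i - (at_ n M).ch p p i) ^ 2 ≤ R ^ 2
  have h1 : ∑ j, y j ^ 2 < R ^ 2 := hy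
  simpa using h1.le

/-- The connection in a small cell: the extension and its bound. -/
theorem conn_small {N : ℕ} {k : ℕ} {B X r ε : ℝ} (hr : 0 < r) (hr1 : r ≤ 1) (hB : 0 < B)
    (hX : LR.Cl k X (chR : LR.V n → ℝ)) (hX1 : 1 ≤ X) (hre : r * (2 ^ k * (X * B)) ≤ ε)
    {M : Type u} [TopologicalSpace M]
    [ChartedSpace (EuclideanHalfSpace n) M] [IsManifold (𝓡∂ n) ∞ M] [T2Space M] [CompactSpace M]
    [ConnectedSpace M] (P' Q' : Pair (at_ n M) N) (p : M) (hp : IsBall (at_ n M) p (2 * r))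
    (ha1 : BddA k B P' p {y | ∑ j, y j ^ 2 < (2 * r) ^ 2}) {W Ω K : Set (Fin n → ℝ)}
    (hW : IsOpn (at_ n M) p W) (ha2 : BddA k B Q' p W) (hΩ : IsOpen Ω) (hΩW : Ω ⊆ W)
    (hWr : ∀ y ∈ W, ∑ j, y j ^ 2 < (3 / 2 * r) ^ 2) (hK : IsClosed K) (hKΩ : K ⊆ Ω) :
    ∃ α : LR.Cn n N, LR.SmU α ∧ (∀ i, ClRC k r ε (α i)) ∧ ConnO α P' p Ω ∧
      ∀ β : LR.Cn n N, LR.SmU β →
      (∀ i, ∀ y ∈ Ω, β i y = ach (at_ n M) Q'.A p i (y + (at_ n M).ch p p)) →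
      (∀ i, ∀ y ∉ K, β i y = α i y) → ∀ i, ClRC k r ε (β i) := by
  have hopn := ball_opn hp
  obtain ⟨a, ha⟩ : ∃ a : LR.Cn n N, a = fun i y =>
      ach (at_ n M) P'.A p i (y + (at_ n M).ch p p) := ⟨_, rfl⟩
  have has : ∀ i p' q, ContDiffOn ℝ ∞ (fun y => a i y p' q) (oB n (2 * r)) := by
    rw [ha]; exact fun i p' q => ach_cd P' hopn i p' q
  have hask : ∀ i, ∀ y ∈ oB n (2 * r), (a i y)ᴴ = -a i y := by
    rw [ha]; exact fun i y hy => ach_sk P' hopn i hy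
  have hab : ∀ y ∈ oB n (2 * r), ∀ i p' q, ∀ l ≤ k,
      ‖iteratedFDeriv ℝ l (fun y => a i y p' q) y‖ ≤ B := by
    rw [ha]; exact fun y hy i p' q l hl => ach_ifd P' hopn ha1 hy i p' q hl
  have hαc : ∀ i, ClRC k r ε (exA r a i) := fun i p' q l hl y =>
    (exA_cl hr hr1 hB.le hX (by linarith) has hab i p' q l hl y).trans hre
  have hre2 : r * B ≤ ε := by
    have h1 : B ≤ 2 ^ k * (X * B) := by
      have h2 : (1 : ℝ) ≤ 2 ^ k := one_le_pow₀ (by norm_num)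
      have h3 : B ≤ X * B := by nlinarith
      nlinarith
    exact (mul_le_mul_of_nonneg_left h1 hr.le).trans hre
  refine ⟨exA r a, exA_smU hr has hask, hαc, ?_, ?_⟩
  · rintro x ⟨hx, hx'⟩ i
    rw [exA_in hr (le_of_lt (hWr _ (hΩW hx'))), ha]
    show _ = ach (at_ n M) P'.A p i ((at_ n M).ch p x - (at_ n M).ch p p + (at_ n M).ch p p)
    rw [sub_add_cancel]
  · intro β hβ hin hout i p' q l hl y
    rcases ifd_glue hΩ hK hKΩ (φ := fun i y =>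
      ach (at_ n M) Q'.A p i (y + (at_ n M).ch p p)) hin hout i p' q l y with ⟨hy, e⟩ | e
    · rw [e]
      have h1 := ach_ifd Q' hW ha2 (hΩW hy) i p' q hl
      have h2 : r ^ (l + 1) ≤ r := by
        calc r ^ (l + 1) ≤ r ^ 1 := pow_le_pow_of_le_one hr.le hr1 (by omega)
          _ = r := pow_one r
      exact (mul_le_mul h2 h1 (norm_nonneg _) hr.le).trans hre2
    · rw [e]
      exact hαc i p' q l hl y

/-- A small cell. -/
theorem smallP_cellDU {N : ℕ} {k : ℕ} (hk : 1 ≤ k) {B ε : ℝ} (hB : 0 < B)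
    (hε : 0 < ε) (hR : RigGR n N k B ε) : ∃ r₀ : ℝ, 0 < r₀ ∧
    ∀ {M : Type u} [TopologicalSpace M]
    [ChartedSpace (EuclideanHalfSpace n) M] [IsManifold (𝓡∂ n) ∞ M] [T2Space M] [CompactSpace M]
    [ConnectedSpace M] (P' Q' : Pair (at_ n M) N) (p : M) (W K : Set (Fin n → ℝ)),
    IsOpn (at_ n M) p W → IsCompact K → K ⊆ W → SmallP k B r₀ P' Q' p W →
    CellDU P' Q' p W K := by
  obtain ⟨X, hX1, hX, r₀, hr₀, hr₀1, hr₀e, hcell⟩ := rigP_cell hk hB hε hR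
  refine ⟨r₀, hr₀, ?_⟩
  intro M _ _ _ _ _ _ P' Q' p W K hW hK hKW hs
  obtain ⟨r, hr, hrr, hp, h1, ha1, hWr, ha2, h2⟩ := hs
  have hr1 : r ≤ 1 := hrr.trans hr₀1
  have hre : r * (2 ^ k * (X * B)) ≤ ε :=
    (mul_le_mul_of_nonneg_right hrr (by positivity)).trans hr₀e
  obtain ⟨Ω, g1, g2, g3, g4, g5⟩ := reg_between hK hW.1 hKW
  have g6 : Ω ⊆ W := subset_closure.trans g5
  have hdom : IsDom (at_ n M) p Ω := ⟨g1, g2, g3, fun y hy => hW.2 y (g5 hy)⟩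
  have hΩr : Ω ⊆ oB n (3 / 2 * r) := fun y hy => hWr y (g6 hy)
  have hopn := ball_opn hp
  have hball : ∀ y ∈ oB n (2 * r), ∃ x ∈ oball (at_ n M) p (2 * r),
      (at_ n M).ch p x = y + (at_ n M).ch p p := by
    intro y hy
    obtain ⟨x, hx, he⟩ := op_pt hopn hy
    refine ⟨x, ⟨hx.1, ?_⟩, he⟩
    show ∑ i, ((at_ n M).ch p x i - (at_ n M).ch p p i) ^ 2 < (2 * r) ^ 2
    rw [he]
    have h3 : ∑ j, y j ^ 2 < (2 * r) ^ 2 := hy
    simpa using h3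
  obtain ⟨f, hf⟩ : ∃ f : LR.MF n, f = fun y => gch (at_ n M) P'.g p (y + (at_ n M).ch p p) :=
    ⟨_, rfl⟩
  have hfs : ∀ i j, ContDiffOn ℝ ∞ (fun y => f y i j) (oB n (2 * r)) := by
    rw [hf]; exact gch_cd P' hopn
  have hfp : ∀ y ∈ oB n (2 * r), (f y).PosDef := by
    rw [hf]; exact fun y hy => gch_pd P' hopn hy
  have hfb : ∀ y ∈ oB n (2 * r), ∀ i j, ∀ l ≤ k,
      ‖iteratedFDeriv ℝ l (fun y => f y i j) y‖ ≤ B := by
    intro y hy i j l hl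
    obtain ⟨x, hx, he⟩ := hball y hy
    have h3 := (h1 x hx).1 i j l hl
    rw [he] at h3
    rw [hf, iter_cent P' p i j l y]
    exact h3
  have h0 : (0 : Fin n → ℝ) ∈ oB n (2 * r) := zero_mem_oB (by linarith)
  have hdet : 1 / B ≤ (f 0).det := by
    obtain ⟨x, hx, he⟩ := hball 0 h0
    have h3 := (h1 x hx).2
    rw [he] at h3
    rw [hf]
    exact h3
  obtain ⟨α, hα, hαc, hcon, hβ⟩ := conn_small hr hr1 hB hX hX1 hre P' Q' p hp ha1 hW ha2 g1 g6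
    hWr hK.isClosed g4
  have hrig := hcell r hr hrr f hfs hfp hfb hdet Ω g1 g2 hΩr α hα hαc
  have hsub : inM (at_ n M) p Ω ⊆ inM (at_ n M) p W := fun x hx => ⟨hx.1, g6 hx.2⟩
  refine ⟨Ω, exR r f, α, _, hdom, g4, g6, exR_sm hr hfs, exR_pos hr hfp, hα, hrig, ?_, ?_⟩
  · intro x hx
    refine ⟨?_, hcon x hx⟩
    have h3 : ∑ j, ((at_ n M).ch p x - (at_ n M).ch p p) j ^ 2 < (3 / 2 * r) ^ 2 := hΩr hx.2
    rw [exR_in hr h3.le, hf]
    show _ = gch (at_ n M) P'.g p ((at_ n M).ch p x - (at_ n M).ch p p + (at_ n M).ch p p)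
    rw [sub_add_cancel]
  · intro g β hg hgp hβU hin' hout hAin hAout
    refine ⟨fun y hy i j l hl => ?_, hβ β hβU hAin hAout⟩
    obtain ⟨x, hx, he⟩ := dom_pt hdom hy
    have h3 := h2 x (hsub hx) i j l hl
    rw [he] at h3
    have e1 : (fun y => g y i j) =ᶠ[𝓝 y]
        fun y => gch (at_ n M) Q'.g p (y + (at_ n M).ch p p) i j := by
      filter_upwards [g1.mem_nhds hy] with y' hy'
      rw [hin' y' hy']
    rw [(e1.iteratedFDeriv ℝ l).self_of_nhds, iter_cent Q' p i j l y]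
    exact h3

/-- A small cell, metrics in one conformal class. -/
theorem smallK_cellDU {N : ℕ} {k : ℕ} (hk : 1 ≤ k) {B ε : ℝ} (hB : 0 < B)
    (hε : 0 < ε) (hR : RigTR n N k B ε) : ∃ r₀ : ℝ, 0 < r₀ ∧
    ∀ {M : Type u} [TopologicalSpace M]
    [ChartedSpace (EuclideanHalfSpace n) M] [IsManifold (𝓡∂ n) ∞ M] [T2Space M] [CompactSpace M]
    [ConnectedSpace M] (P' Q' : Pair (at_ n M) N) (p : M) (W K : Set (Fin n → ℝ)),
    IsOpn (at_ n M) p W → IsCompact K → K ⊆ W → SmallK k B r₀ P' Q' p W K →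
    CellDU P' Q' p W K := by
  obtain ⟨X, hX1, hX, r₀, hr₀, hr₀1, hr₀e, hcell⟩ := rigK_cell hk hB hε hR
  refine ⟨r₀, hr₀, ?_⟩
  intro M _ _ _ _ _ _ P' Q' p W K hW hK hKW hs
  obtain ⟨r, h, hr, hrr, hp, hhs, hhb, hdet, ha1, hWr, c1, c2, ha2, hKc⟩ := hs
  have hr1 : r ≤ 1 := hrr.trans hr₀1
  have hre : r * (2 ^ k * (X * B)) ≤ ε :=
    (mul_le_mul_of_nonneg_right hrr (by positivity)).trans hr₀e
  obtain ⟨Ω, g1, g2, g3, g4, g5, g7⟩ := reg_conn hK hW.1 hKW hKc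
  have g6 : Ω ⊆ W := subset_closure.trans g5
  have hdom : IsDom (at_ n M) p Ω := ⟨g1, g2, g3, fun y hy => hW.2 y (g5 hy)⟩
  have hΩr : Ω ⊆ oB n (3 / 2 * r) := fun y hy => hWr y (g6 hy)
  obtain ⟨α, hα, hαc, hcon, hβ⟩ := conn_small hr hr1 hB hX hX1 hre P' Q' p hp ha1 hW ha2 g1 g6
    hWr hK.isClosed g4
  have hrig := hcell r hr hrr h hhs (fun y hy => (hhb y hy).1) (fun y hy => (hhb y hy).2) hdet
    Ω g1 g2 g7 hΩr
  have hex : ∀ x ∈ inM (at_ n M) p W, exR r h ((at_ n M).ch p x - (at_ n M).ch p p) =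
      h ((at_ n M).ch p x - (at_ n M).ch p p) := fun x hx => exR_in hr (hWr _ hx.2).le
  refine cls_cellDU (exR_sm hr hhs) (exR_pos hr fun y hy => (hhb y hy).1) hα hrig hαc P' Q' p hW
    hdom g5 g4 (fun x hx => ?_) (fun x hx => ?_) hcon hβ
  · rw [hex x hx]
    exact c1 x hx
  · rw [hex x hx]
    exact c2 x hx

/-- The connection in a cell near a constant metric. -/
theorem conn_near {N : ℕ} {k : ℕ} {δ s ε : ℝ} (hs : 0 < s)
    (hsδ : s * (max 1 s ^ k * δ) ≤ ε) {M : Type u} [TopologicalSpace M]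
    [ChartedSpace (EuclideanHalfSpace n) M] [IsManifold (𝓡∂ n) ∞ M] [T2Space M] [CompactSpace M]
    [ConnectedSpace M] (Q' : Pair (at_ n M) N) (p : M) {W Ω K : Set (Fin n → ℝ)}
    (hW : IsOpn (at_ n M) p W) (ha2 : BddA k δ Q' p W) (hΩ : IsOpen Ω) (hΩW : Ω ⊆ W)
    (hK : IsClosed K) (hKΩ : K ⊆ Ω) {α : LR.Cn n N}
    (hα : ∀ i a b, LR.Cl k δ (fun y => α i y a b)) :
    (∀ i, ClRC k s ε (α i)) ∧ ∀ β : LR.Cn n N, LR.SmU β →
      (∀ i, ∀ y ∈ Ω, β i y = ach (at_ n M) Q'.A p i (y + (at_ n M).ch p p)) →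
      (∀ i, ∀ y ∉ K, β i y = α i y) → ∀ i, ClRC k s ε (β i) := by
  have hαR : ∀ i, ClRC k s ε (α i) := by
    intro i a b l hl y
    have h1 := sc_le hs hl (hα i a b l hl y)
    calc s ^ (l + 1) * ‖iteratedFDeriv ℝ l (fun x => α i x a b) y‖
        = s * (s ^ l * ‖iteratedFDeriv ℝ l (fun x => α i x a b) y‖) := by rw [pow_succ]; ring
      _ ≤ s * (max 1 s ^ k * δ) := mul_le_mul_of_nonneg_left h1 hs.le
      _ ≤ ε := hsδ
  refine ⟨hαR, fun β hβ hAin hAout i a b l hl y => ?_⟩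
  rcases ifd_glue hΩ hK hKΩ (φ := fun i y =>
    ach (at_ n M) Q'.A p i (y + (at_ n M).ch p p)) hAin hAout i a b l y with ⟨hy, e⟩ | e
  · rw [e]
    have h1 := sc_le hs hl (ach_ifd Q' hW ha2 (hΩW hy) i a b hl)
    calc s ^ (l + 1) * ‖iteratedFDeriv ℝ l
          (fun y => ach (at_ n M) Q'.A p i (y + (at_ n M).ch p p) a b) y‖
        = s * (s ^ l * ‖iteratedFDeriv ℝ l
          (fun y => ach (at_ n M) Q'.A p i (y + (at_ n M).ch p p) a b) y‖) := by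
            rw [pow_succ]; ring
      _ ≤ s * (max 1 s ^ k * δ) := mul_le_mul_of_nonneg_left h1 hs.le
      _ ≤ ε := hsδ
  · rw [e]
    exact hαR i a b l hl y

omit [NeZero n] in
theorem cube_open (R : ℝ) : IsOpen {y : Fin n → ℝ | ∀ j, |y j| < R} := by
  have e1 : {y : Fin n → ℝ | ∀ j, |y j| < R} = ⋂ j, {y : Fin n → ℝ | |y j| < R} := by
    ext y
    simp
  rw [e1]
  exact isOpen_iInter_of_finite fun j => isOpen_lt (by fun_prop) continuous_const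

/-- A cell near a constant metric. -/
theorem nearP_cellDU {N : ℕ} {k : ℕ} {B ε : ℝ} (hε : 0 < ε)
    (hRig : RigGR n N k B ε) (R : ℝ) (hR : 0 < R) : ∃ δ : ℝ, 0 < δ ∧
    ∀ {M : Type u} [TopologicalSpace M]
    [ChartedSpace (EuclideanHalfSpace n) M] [IsManifold (𝓡∂ n) ∞ M] [T2Space M] [CompactSpace M]
    [ConnectedSpace M] (P' Q' : Pair (at_ n M) N) (p : M) (W K : Set (Fin n → ℝ)),
    IsOpn (at_ n M) p W → IsCompact K → K ⊆ W → NearP k B R δ P' Q' p W K →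
    CellDU P' Q' p W K := by
  obtain ⟨δ, hδ, s, hs, hin, hsδ, hmain⟩ := rigP_near hε hRig (R + 1) (by linarith)
  refine ⟨δ, hδ, ?_⟩
  intro M _ _ _ _ _ _ P' Q' p W K hW hK hKW hnear
  obtain ⟨G, h, α, hG, hGb, hGd, hh, hhp, hhcl, hα, hαcl, hmet, hcon, hKR, hcl, hbd⟩ := hnear
  obtain ⟨Ω, g1, g2, g3, g4, g5⟩ := reg_between hK (hW.1.inter (cube_open (n := n) (R + 1)))
    fun y hy => ⟨hKW hy, fun j => lt_of_le_of_lt (hKR y hy j) (by linarith)⟩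
  have g6 : Ω ⊆ W := fun y hy => (g5 (subset_closure hy)).1
  have hΩR : ∀ y ∈ Ω, ∀ j, |y j| ≤ R + 1 := fun y hy j => ((g5 (subset_closure hy)).2 j).le
  have hsub : inM (at_ n M) p Ω ⊆ inM (at_ n M) p W := fun x hx => ⟨hx.1, g6 hx.2⟩
  have hdom : IsDom (at_ n M) p Ω := ⟨g1, g2, g3, fun y hy => hW.2 y (g5 hy).1⟩
  obtain ⟨hαR, hβR⟩ := conn_near hs hsδ Q' p hW hbd g1 g6 hK.isClosed g4 hαcl
  have hrig := hmain G hG hGb (by rwa [one_div] at hGd) h hh hhp hhcl Ω g1 g2 hΩR α hα hαR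
  refine ⟨Ω, exG s G h, α, _, hdom, g4, g6, exG_sm hh, exG_pos hG hhp, hα, hrig, ?_, ?_⟩
  · intro x hx
    refine ⟨?_, fun i => hcon x (hsub hx) i⟩
    rw [hmet x (hsub hx), exG_in hs (hin _ fun j => hΩR _ hx.2 j)]
  · intro g β hg hgp hβ hin' hout hAin hAout
    refine ⟨fun y hy i j l hl => ?_, hβR β hβ hAin hAout⟩
    obtain ⟨x, hx, hxy⟩ := dom_pt hdom hy
    have h1 := hcl x (hsub hx) i j l hl
    rw [hxy] at h1
    have e1 : (fun y => g y i j - G i j) =ᶠ[𝓝 y]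
        fun y => gch (at_ n M) Q'.g p (y + (at_ n M).ch p p) i j - G i j := by
      filter_upwards [g1.mem_nhds hy] with y' hy'
      rw [hin' y' hy']
    rw [(e1.iteratedFDeriv ℝ l).self_of_nhds]
    have h2 := iteratedFDeriv_comp_add_right (𝕜 := ℝ)
      (f := fun y => gch (at_ n M) Q'.g p y i j - G i j) l ((at_ n M).ch p p) y
    rw [h2]
    exact h1

/-- A cell near a constant metric, metrics in one conformal class. -/
theorem nearK_cellDU {N : ℕ} {k : ℕ} {B ε : ℝ} (hε : 0 < ε)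
    (hRig : RigTR n N k B ε) (R : ℝ) (hR : 0 < R) : ∃ δ : ℝ, 0 < δ ∧
    ∀ {M : Type u} [TopologicalSpace M]
    [ChartedSpace (EuclideanHalfSpace n) M] [IsManifold (𝓡∂ n) ∞ M] [T2Space M] [CompactSpace M]
    [ConnectedSpace M] (P' Q' : Pair (at_ n M) N) (p : M) (W K : Set (Fin n → ℝ)),
    IsOpn (at_ n M) p W → IsCompact K → K ⊆ W → NearK k B R δ P' Q' p W K →
    CellDU P' Q' p W K := by
  obtain ⟨δ, hδ, s, hs, hin, hsδ, hmain⟩ := rigK_near hε hRig (R + 1) (by linarith)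
  refine ⟨δ, hδ, ?_⟩
  intro M _ _ _ _ _ _ P' Q' p W K hW hK hKW hnear
  obtain ⟨G, h, α, hG, hGb, hGd, hh, hhp, hhcl, hα, hαcl, c1, c2, hcon, hKR, hbd, hKc⟩ := hnear
  have hWo := hW.1.inter (cube_open (n := n) (R + 1))
  obtain ⟨Ω, g1, g2, g3, g4, g5, g7⟩ := reg_conn hK hWo
    (fun y hy => ⟨hKW hy, fun j => lt_of_le_of_lt (hKR y hy j) (by linarith)⟩) hKc
  have g6 : Ω ⊆ W := fun y hy => (g5 (subset_closure hy)).1
  have hΩR : ∀ y ∈ Ω, ∀ j, |y j| ≤ R + 1 := fun y hy j => ((g5 (subset_closure hy)).2 j).le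
  have hdom : IsDom (at_ n M) p Ω := ⟨g1, g2, g3, fun y hy => hW.2 y (g5 hy).1⟩
  have hW' : IsOpn (at_ n M) p (W ∩ {y : Fin n → ℝ | ∀ j, |y j| < R + 1}) :=
    ⟨hWo, fun y hy => hW.2 y hy.1⟩
  obtain ⟨hαR, hβR⟩ := conn_near hs hsδ Q' p hW hbd g1 g6 hK.isClosed g4 hαcl
  have hrig := hmain G hG hGb (by rwa [one_div] at hGd) h hh hhp hhcl Ω g1 g2 g7 hΩR
  have hex : ∀ x ∈ inM (at_ n M) p (W ∩ {y : Fin n → ℝ | ∀ j, |y j| < R + 1}),
      exG s G h ((at_ n M).ch p x - (at_ n M).ch p p) =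
        h ((at_ n M).ch p x - (at_ n M).ch p p) := fun x hx =>
    exG_in hs (hin _ fun j => (hx.2.2 j).le)
  obtain ⟨Ω', h', α', X', d1, d2, d3, d4⟩ := cls_cellDU (exG_sm hh) (exG_pos hG hhp) hα hrig hαR
    P' Q' p hW' hdom g5 g4 (fun x hx => by rw [hex x hx]; exact c1 x ⟨hx.1, hx.2.1⟩)
    (fun x hx => by rw [hex x hx]; exact c2 x ⟨hx.1, hx.2.1⟩)
    (fun x hx => hcon x ⟨hx.1, g6 hx.2⟩) hβR
  exact ⟨Ω', h', α', X', d1, d2, d3.trans inter_subset_left, d4⟩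

end

end Vale.Agent.P088.HY.H794

end
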