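import Vale.Agent.P088.R2.H794.FamP1

/-!
# P088: two arbitrary pairs, finitely many cells
-/

set_option linter.all false

open Bundle Manifold MeasureTheory Set Filter Topology
open scoped ContDiff Matrix ENNReal

noncomputable section

namespace Vale.Agent.P088.HY.H794

open Vale.Agent.P088 Vale.Agent.P088.B Vale.Agent.P088.EYM
open Vale.Agent.P088.H207 (IsDom IsOpn inM MatchO CloseO IsBall)
open Vale.Agent.P088.R2.H455.T (ClRC RigTR RowT2)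
open Vale.Agent.P088.R2.H455.G (RigGR rigGR_mono)
open Vale.Agent.P088.R2.H455.J (ConfO BddA ConnO)

universe u

section

variable {n N : ℕ}

theorem rigGR_le [NeZero n] {k k' : ℕ} (hk : k ≤ k') {B ε : ℝ} (h : RigGR n N k B ε) :
    RigGR n N k' B ε := by
  induction k', hk using Nat.le_induction with
  | base => exact h
  | succ m _ ih => exact rigGR_mono ih

theorem rigTR_le {k k' : ℕ} (hk : k ≤ k') {B ε : ℝ} (h : RigTR n N k B ε) :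
    RigTR n N k' B ε := by
  intro R hR G hG hGb hGd Ω hΩ hreg hcn hΩb h' s1 p1 hout c1 c₁ c₂ hc1 hc2 hp1 hp2 hcoff A₁ A₂
    hA1 hA2 hAoff hY1 hY2 hor
  exact h R hR G hG hGb hGd Ω hΩ hreg hcn hΩb h' s1 p1 hout
    (fun i j l hl => c1 i j l (hl.trans hk)) c₁ c₂ hc1 hc2 hp1 hp2 hcoff A₁ A₂ hA1 hA2 hAoff
    (fun i a b l hl => hY1 i a b l (hl.trans hk)) (fun i a b l hl => hY2 i a b l (hl.trans hk)) hor

end

section

variable {n N : ℕ} [NeZero n] {M : Type u} {Z : At n M} {k : ℕ} {B R r₀ r₁ δ δ' : ℝ}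
  {P' Q' : Pair Z N} {p : M} {W K : Set (V n)}

theorem cl_le {F : Type*} [NormedAddCommGroup F] [NormedSpace ℝ F] {f : V n → F}
    (h : LR.Cl k δ f) (hd : δ ≤ δ') : LR.Cl k δ' f := fun l hl y => (h l hl y).trans hd

theorem bddA_le (h : BddA k δ Q' p W) (hd : δ ≤ δ') : BddA k δ' Q' p W :=
  fun x hx i a b l hl => (h x hx i a b l hl).trans hd

theorem smallP_le (h : SmallP k B r₀ P' Q' p W) (hr : r₀ ≤ r₁) : SmallP k B r₁ P' Q' p W := by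
  obtain ⟨r, h1, h2, h3⟩ := h
  exact ⟨r, h1, h2.trans hr, h3⟩

theorem smallK_le (h : SmallK k B r₀ P' Q' p W K) (hr : r₀ ≤ r₁) : SmallK k B r₁ P' Q' p W K := by
  obtain ⟨r, g, h1, h2, h3⟩ := h
  exact ⟨r, g, h1, h2.trans hr, h3⟩

theorem nearP_le (h : NearP k B R δ P' Q' p W K) (hd : δ ≤ δ') : NearP k B R δ' P' Q' p W K := by
  obtain ⟨G, g, α, h1, h2, h3, h4, h5, h6, h7, h8, h9, h10, h11, h12, h13⟩ := h
  exact ⟨G, g, α, h1, h2, h3, h4, h5, fun i j => cl_le (h6 i j) hd, h7,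
    fun i a b => cl_le (h8 i a b) hd, h9, h10, h11,
    fun x hx i j l hl => (h12 x hx i j l hl).trans hd, bddA_le h13 hd⟩

theorem nearK_le (h : NearK k B R δ P' Q' p W K) (hd : δ ≤ δ') : NearK k B R δ' P' Q' p W K := by
  obtain ⟨G, g, α, h1, h2, h3, h4, h5, h6, h7, h8, h9, h10, h11, h12, h13, h14⟩ := h
  exact ⟨G, g, α, h1, h2, h3, h4, h5, fun i j => cl_le (h6 i j) hd, h7,
    fun i a b => cl_le (h8 i a b) hd, h9, h10, h11, h12, bddA_le h13 hd, h14⟩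

end

/-- **Two arbitrary pairs, finitely many cells.** -/
theorem cells_pairs (hT : RowT2)
    (hRig : ∀ n N : ℕ, 3 ≤ n → 1 ≤ N → ∃ k : ℕ, ∀ B : ℝ, 0 < B → ∃ ε > 0, RigGR n N k B ε)
    {n : ℕ} [NeZero n] (hn : 3 ≤ n) {N : ℕ} (hN : 1 ≤ N) : ∃ k : ℕ, ∀ B R : ℝ, 0 < B → 0 < R →
    ∃ r₀ δ : ℝ, 0 < r₀ ∧ 0 < δ ∧ CellUniqP.{u} n N k B R r₀ δ := by
  obtain ⟨k₁, hk₁⟩ := hRig n N hn hN
  obtain ⟨k₂, hk₂⟩ := Vale.Agent.P088.R2.H455.T.rigTR hn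
    (Vale.Agent.P088.R2.H455.T.unitT hT hn hN)
  obtain ⟨k, hk, hk1, hk2⟩ : ∃ k : ℕ, 1 ≤ k ∧ k₁ ≤ k ∧ k₂ ≤ k :=
    ⟨k₁ + k₂ + 1, by omega, by omega, by omega⟩
  refine ⟨k, fun B R hB hR => ?_⟩
  obtain ⟨ε₁, hε₁, h₁⟩ := hk₁ B hB
  obtain ⟨ε₂, hε₂, h₂⟩ := hk₂ B hB
  have h₁' := rigGR_le hk1 h₁
  have h₂' := rigTR_le hk2 h₂
  obtain ⟨r₁, hr₁, c1⟩ := smallP_cellDU.{u} hk hB hε₁ h₁'
  obtain ⟨r₂, hr₂, c2⟩ := smallK_cellDU.{u} hk hB hε₂ h₂'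
  obtain ⟨δ₁, hδ₁, c3⟩ := nearP_cellDU.{u} hε₁ h₁' R hR
  obtain ⟨δ₂, hδ₂, c4⟩ := nearK_cellDU.{u} hε₂ h₂' R hR
  refine ⟨min r₁ r₂, min δ₁ δ₂, lt_min hr₁ hr₂, lt_min hδ₁ hδ₂, ?_⟩
  intro M _ _ _ _ _ _ Γ O hO hΓ hΓne P P' Q Q' hd hP hQ ι _ p W K hW hK hKW hdj hc hcells hpw hA
  have hd1 : Vale.Agent.P088.B.SameData Γ P Q' :=
    Vale.Agent.P088.H207.O.same_symm (Vale.Agent.P088.B.same_related (at_ n M) rfl hO hΓ hΓne hQ
      (Vale.Agent.P088.H207.O.same_symm hd))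
  suffices hrel : Related Γ P Q' from
    Vale.Agent.P088.H207.O.related_tr hrel (Vale.Agent.P088.H207.O.related_inv hQ)
  have hD : ∀ a, CellDU P' Q' (p a) (W a) (K a) := fun a => by
    rcases hcells a with h | h | h | h
    · exact c1 P' Q' (p a) (W a) (K a) (hW a) (hK a) (hKW a) (smallP_le h (min_le_left _ _))
    · exact c3 P' Q' (p a) (W a) (K a) (hW a) (hK a) (hKW a) (nearP_le h (min_le_left _ _))
    · exact c2 P' Q' (p a) (W a) (K a) (hW a) (hK a) (hKW a) (smallK_le h (min_le_right _ _))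
    · exact c4 P' Q' (p a) (W a) (K a) (hW a) (hK a) (hKW a) (nearK_le h (min_le_right _ _))
  choose Ω h α X g1 g2 g3 g4 g5 g6 g7 g8 g9 using hD
  have hsub : ∀ a, inM (at_ n M) (p a) (Ω a) ⊆ inM (at_ n M) (p a) (W a) := fun a x hx =>
    ⟨hx.1, g3 a hx.2⟩
  have hdj' : ∀ a b, a ≠ b → Disjoint (inM (at_ n M) (p a) (Ω a)) (inM (at_ n M) (p b) (Ω b)) :=
    fun a b hab => (hdj a b hab).mono (hsub a) (hsub b)
  obtain ⟨K₁, e1, e2, e3, e4⟩ := F.nbF g1 hK g2 hdj' hc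
  exact F.bg_famU hn hN (at_ n M) rfl Γ O hO hΓ hΓne P P' Q' hd1 hP p g4 g5 g6 g7 g1 g8 hdj' K K₁
    hK e2 e1 e3 hc e4 hpw hA g9

end Vale.Agent.P088.HY.H794

end
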