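import Vale.Agent.P088.R2.H794.FamP2
import Vale.Agent.P088.R2.H551.V.All
import Vale.Agent.P088.R2.H238.V.RigGR
import Vale.Agent.P088.R2.H349.J.Close
import Vale.Agent.P088.R2.H455.F.AdT

/-!
# P088: two arbitrary pairs, finitely many cells, all rows plugged in
-/

noncomputable section

namespace Vale.Agent.P088.HY.H794

universe u

/-- **Two arbitrary pairs, finitely many cells.** -/
theorem pairs_fin {n : ℕ} [NeZero n] (hn : 3 ≤ n) {N : ℕ} (hN : 1 ≤ N) :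
    ∃ k : ℕ, ∀ B R : ℝ, 0 < B → 0 < R →
      ∃ r₀ δ : ℝ, 0 < r₀ ∧ 0 < δ ∧ CellUniqP.{u} n N k B R r₀ δ :=
  cells_pairs (Vale.Agent.P088.R2.H455.F.rowT2_of Vale.Agent.P088.HY.t2CC)
    (fun _ _ hn hN => Vale.Agent.P088.R2.H238.V.rigGR Vale.Agent.P088.PJ.rowRG hn hN) hn hN

end Vale.Agent.P088.HY.H794
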