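import Vale.Agent.P088.R2.H794.Near
import Vale.Agent.P088.R2.H794.RowLog
import Vale.Agent.P088.R2.H794.StT

/-!
# P088: two arbitrary metrics, on an arbitrary manifold
-/

set_option linter.all false

open Manifold Set
open scoped ContDiff Matrix

noncomputable section

namespace Vale.Agent.P088.HY.H794

open Vale.Agent.P088 Vale.Agent.P088.B

universe u

/-- **Two arbitrary metrics**: (I) which differ in a small ball; (II) near a constant metric. -/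
theorem two_metrics_fin {n : ℕ} [NeZero n] (hn : 3 ≤ n) : ∃ k : ℕ,
    (∀ B : ℝ, 0 < B → ∃ r₀ : ℝ, 0 < r₀ ∧ ∀ r : ℝ, 0 < r → r ≤ r₀ →
      ∀ N : ℕ, 1 ≤ N → TwoSmall.{u} n N k r B) ∧
    ∀ B R : ℝ, 0 < B → 0 < R → ∃ δ : ℝ, 0 < δ ∧ ∀ N : ℕ, 1 ≤ N → TwoNear.{u} n N k B R δ := by
  obtain ⟨k, h1, h2⟩ := two_metrics.{u} rowLOG hn
  refine ⟨k, fun B hB => ?_, fun B R hB hR => ?_⟩
  · obtain ⟨r₀, hr₀, h⟩ := h1 B hB
    refine ⟨r₀, hr₀, fun r hr hrr N hN => ?_⟩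
    intro M _ _ _ _ _ _ Γ O hO hΓ hne P P' Q Q' hd hP hQ p hp b1 b2 hA hpw hU
    exact h r hr hrr hN (at_ n M) rfl Γ O hO hΓ hne P P' Q Q' hd hP hQ p hp b1 b2 hA hpw hU
  · obtain ⟨δ, hδ, h⟩ := h2 B R hB hR
    refine ⟨δ, hδ, fun N hN => ?_⟩
    intro G hG hGb hGd g hg hgp hgc M _ _ _ _ _ _ Γ O hO hΓ hne P P' Q Q' hd hP hQ p W K hW hm
      hK hKW hKR hcc hpw hU hcl
    exact h G hG hGb hGd g hg hgp hgc hN (at_ n M) rfl Γ O hO hΓ hne P P' Q Q' hd hP hQ p W hW hm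
      K hK hKW hKR hcc hpw hU hcl

end Vale.Agent.P088.HY.H794

end
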